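import Mathlib

/-!
Stepanov's bound for the points of an Artin-Schreier curve.
-/

namespace Vale.Agent.P042.Upper.WeilProof

open Polynomial Finset Filter Topology

noncomputable section

/-! ### Stepanov's auxiliary function -/

section Stepanov

variable {K : Type*} [Field K] (p : ℕ) (f : K[X])

/-- `Y ^ J` reduced modulo `Y ^ p - Y - f`. -/
def red : ℕ → K[X][X]
  | 0 => 1
  | J + 1 => X * red J - C ((red J).coeff (p - 1)) * (X ^ p - X - C f)

/-- Evaluation at a point. -/
def ev (x y : K) : K[X][X] →+* K := eval₂RingHom (evalRingHom x) y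

lemma ev_red {x y : K} (h : y ^ p - y = f.eval x) : ∀ J, ev x y (red p f J) = y ^ J
  | 0 => by simp [red]
  | J + 1 => by
    have hX : ev x y X = y := eval₂_X _ _
    have hC : ev x y (C f) = f.eval x := eval₂_C _ _
    rw [red, map_sub, map_mul, map_mul, map_sub, map_sub, map_pow, hX, hC, ev_red h J, h, sub_self,
      mul_zero, sub_zero, pow_succ']

variable [hp : Fact p.Prime] {d : ℕ}

lemma red_coeff (J j : ℕ) (hr : ∀ j, p ≤ j → (red p f J).coeff j = 0) :
    (red p f (J + 1)).coeff j = if p ≤ j then 0 else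
      (if j = 0 then (red p f J).coeff (p - 1) * f else
        (red p f J).coeff (j - 1) + if j = 1 then (red p f J).coeff (p - 1) else 0) := by
  have hp2 := hp.out.two_le
  rw [red]
  set c := (red p f J).coeff (p - 1)
  rcases j with _ | j
  · rw [if_neg (by omega), if_pos rfl]
    simp [coeff_X_pow, (show (0 : ℕ) ≠ p by omega)]
  · simp only [coeff_sub, coeff_X_mul, coeff_C_mul, coeff_X_pow, coeff_X, coeff_C_succ,
      Nat.add_sub_cancel]
    by_cases hj : p ≤ j + 1
    · rw [if_pos hj]
      by_cases hjp : j + 1 = p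
      · rw [if_pos hjp, if_neg (by omega), show j = p - 1 by omega]
        ring
      · rw [if_neg hjp, if_neg (by omega), hr j (by omega)]
        ring
    · rw [if_neg hj]
      simp only [show ¬(j + 1 = p) by omega, show ¬(j + 1 = 0) by omega, if_false]
      by_cases h1 : j = 0
      · subst h1; simp [sub_eq_add_neg]
      · simp [h1]

lemma red_spec (hfd : f.natDegree = d) (hd : 1 ≤ d) (J : ℕ) :
    (∀ j, p ≤ j → (red p f J).coeff j = 0) ∧
    (∀ i j, ((red p f J).coeff j).coeff i ≠ 0 → i * p + j * d ≤ J * d) ∧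
    ((red p f J).coeff (J % p)).coeff (J / p * d) ≠ 0 := by
  have hp2 := hp.out.two_le
  induction J with
  | zero =>
    refine ⟨fun j hj => ?_, fun i j h => ?_, ?_⟩
    · rw [red, coeff_one, if_neg (by omega)]
    · rw [red, coeff_one] at h
      split_ifs at h with hj
      · subst hj
        rw [coeff_one] at h
        split_ifs at h with hi
        · subst hi; simp
        · exact absurd rfl h
      · exact absurd (coeff_zero i) h
    · simp [red]
  | succ J ih =>
    obtain ⟨hdeg, hA, hB⟩ := ih
    refine ⟨fun j hj => by rw [red_coeff p f J j hdeg, if_pos hj], fun i j h => ?_, ?_⟩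
    · rw [red_coeff p f J j hdeg] at h
      by_cases hj : p ≤ j
      · rw [if_pos hj] at h; exact absurd (coeff_zero i) h
      rw [if_neg hj] at h
      by_cases hj0 : j = 0
      · subst hj0
        rw [if_pos rfl, coeff_mul] at h
        obtain ⟨⟨i1, i2⟩, hi, hne⟩ := Finset.exists_ne_zero_of_sum_ne_zero h
        rw [HasAntidiagonal.mem_antidiagonal] at hi
        have h1 := hA i1 (p - 1) (left_ne_zero_of_mul hne)
        have h2 : i2 ≤ d := hfd ▸ le_natDegree_of_ne_zero (right_ne_zero_of_mul hne)
        obtain ⟨P, rfl⟩ : ∃ P, p = P + 1 := ⟨p - 1, by omega⟩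
        simp only [Nat.add_sub_cancel] at h1
        simp only [] at hi
        subst hi
        nlinarith [Nat.mul_le_mul_right (P + 1) h2]
      · rw [if_neg hj0, coeff_add] at h
        have h1 : ((red p f J).coeff (j - 1)).coeff i ≠ 0 ∨
            (j = 1 ∧ ((red p f J).coeff (p - 1)).coeff i ≠ 0) := by
          by_contra hh
          rw [not_or, not_not, not_and_or, not_not] at hh
          rcases hh.2 with h1 | h1
          · rw [hh.1, if_neg h1, coeff_zero, add_zero] at h; exact h rfl
          · split_ifs at h <;> simp [hh.1, h1] at h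
        rcases h1 with h1 | ⟨rfl, h1⟩
        · have := hA i (j - 1) h1
          obtain ⟨j', rfl⟩ : ∃ j', j = j' + 1 := ⟨j - 1, by omega⟩
          simp only [Nat.add_sub_cancel] at this
          nlinarith
        · have h2 := hA i (p - 1) h1
          have : 1 * d ≤ (p - 1) * d := Nat.mul_le_mul_right d (by omega)
          nlinarith
    · have hJ := Nat.div_add_mod J p
      by_cases htop : J % p = p - 1
      · have e : J + 1 = p * (J / p + 1) := by rw [mul_add, mul_one]; omega
        have e1 : (J + 1) % p = 0 := by rw [e]; exact Nat.mul_mod_right _ _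
        have e2 : (J + 1) / p = J / p + 1 := by
          rw [e]; exact Nat.mul_div_cancel_left _ (by omega)
        rw [e1, e2, red_coeff p f J 0 hdeg, if_neg (by omega), if_pos rfl, add_one_mul]
        have hc : ((red p f J).coeff (p - 1)).natDegree ≤ J / p * d := by
          refine natDegree_le_iff_coeff_eq_zero.2 fun i hi => ?_
          by_contra hne
          have h := hA i (p - 1) hne
          rw [← htop] at h
          have h2 : J * d = p * (J / p) * d + J % p * d := by rw [← add_mul, hJ]
          have h3 : (J / p * d + 1) * p ≤ i * p := Nat.mul_le_mul_right p hi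
          nlinarith
        rw [coeff_mul_add_eq_of_natDegree_le hc hfd.le, ← htop]
        refine mul_ne_zero hB ?_
        rw [← hfd]
        exact leadingCoeff_ne_zero.2 (fun h0 => by simp [h0] at hfd; omega)
      · have hlt : J % p < p - 1 := by have := Nat.mod_lt J (by omega : p > 0); omega
        have e1 : (J + 1) % p = J % p + 1 := by
          rw [Nat.add_mod, Nat.one_mod_eq_one.2 (by omega)]
          exact Nat.mod_eq_of_lt (by omega)
        have e2 : (J + 1) / p = J / p := Nat.succ_div_of_not_dvd (by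
          intro hd'; have := Nat.mod_eq_zero_of_dvd hd'; omega)
        rw [e1, e2, red_coeff p f J _ hdeg, if_neg (by omega), if_neg (by omega),
          Nat.add_sub_cancel, coeff_add]
        by_cases h0 : J % p + 1 = 1
        · rw [if_pos h0]
          have hz : ((red p f J).coeff (p - 1)).coeff (J / p * d) = 0 := by
            by_contra hne
            have h := hA _ _ hne
            have h2 : J * d = p * (J / p) * d + J % p * d := by rw [← add_mul, hJ]
            have h3 : J % p = 0 := by omega
            have h4 : 1 * d ≤ (p - 1) * d := Nat.mul_le_mul_right d (by omega)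
            rw [h3] at h2
            nlinarith
          rw [hz, add_zero]; exact hB
        · rw [if_neg h0, coeff_zero, add_zero]; exact hB

/-- The exponent pairs of weight at most `W`. -/
def Tset (d W : ℕ) : Finset (ℕ × ℕ) :=
  ((range (W + 1)) ×ˢ (range p)).filter fun t => t.1 * p + t.2 * d ≤ W

omit hp in
lemma mem_Tset {d W : ℕ} (hp0 : 0 < p) {t : ℕ × ℕ} :
    t ∈ Tset p d W ↔ t.2 < p ∧ t.1 * p + t.2 * d ≤ W := by
  simp only [Tset, Finset.mem_filter, Finset.mem_product, Finset.mem_range]
  refine ⟨fun h => ⟨h.1.2, h.2⟩, fun h => ⟨⟨?_, h.1⟩, h.2⟩⟩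
  have : t.1 * 1 ≤ t.1 * p := Nat.mul_le_mul_left _ hp0
  omega

lemma weight_inj (hd : 1 ≤ d) (hdp : d < p) {i j i' j' : ℕ} (hj : j < p) (hj' : j' < p)
    (h : i * p + j * d = i' * p + j' * d) : i = i' ∧ j = j' := by
  have hco : Nat.Coprime p d := hp.out.coprime_iff_not_dvd.2
    fun hdd => absurd (Nat.le_of_dvd (by omega) hdd) (by omega)
  have h1 : j * d ≡ j' * d [MOD p] := by
    have h' := congrArg (· % p) h
    simp only [Nat.mul_add_mod_self_right] at h'
    exact h'
  have hjj : j = j' := Nat.ModEq.eq_of_lt_of_lt (Nat.ModEq.cancel_right_of_coprime hco h1) hj hj'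
  subst hjj
  exact ⟨Nat.eq_of_mul_eq_mul_right hp.out.pos (by omega), rfl⟩

lemma card_Tset_le (hd : 1 ≤ d) (hdp : d < p) (W : ℕ) : (Tset p d W).card ≤ W + 1 := by
  rw [← Finset.card_range (W + 1)]
  refine Finset.card_le_card_of_injOn (fun t => t.1 * p + t.2 * d) (fun t ht => ?_) ?_
  · rw [Finset.mem_coe, mem_Tset p hp.out.pos] at ht
    simp only [Finset.mem_coe, Finset.mem_range]; omega
  · intro t ht t' ht' h
    rw [Finset.mem_coe, mem_Tset p hp.out.pos] at ht ht'
    obtain ⟨h1, h2⟩ := weight_inj p hd hdp ht.1 ht'.1 h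
    exact Prod.ext h1 h2

lemma le_card_Tset {W : ℕ} (hW : p * d ≤ W) : W - p * d ≤ (Tset p d W).card := by
  have hp0 := hp.out.pos
  have hsub : ((range ((W - p * d) / p + 1)) ×ˢ range p) ⊆ Tset p d W := by
    intro t ht
    simp only [Finset.mem_product, Finset.mem_range] at ht
    refine (mem_Tset p hp0).2 ⟨ht.2, ?_⟩
    have h1 : t.1 * p ≤ (W - p * d) / p * p := Nat.mul_le_mul_right p (by omega)
    have h2 := Nat.div_mul_le_self (W - p * d) p
    have h3 : t.2 * d ≤ p * d := Nat.mul_le_mul_right d ht.2.le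
    omega
  refine le_trans ?_ (Finset.card_le_card hsub)
  rw [Finset.card_product, Finset.card_range, Finset.card_range]
  have := Nat.div_add_mod (W - p * d) p
  have := Nat.mod_lt (W - p * d) hp0
  rw [add_one_mul, mul_comm ((W - p * d) / p) p]
  omega

variable [CharP K p] [IsAlgClosed K]

/-- Stepanov's bound for the points with `f x` in the image of `y ↦ y ^ p - y`. -/
lemma stepanov (hfd : f.natDegree = d) (hd : 1 ≤ d) (hdp : d < p) {m : ℕ}
    (hbig : (p * d + 5) ^ 3 ≤ p ^ m) (S : Finset K)
    (hx : ∀ x ∈ S, x ^ p ^ (2 * m) = x)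
    (hy : ∀ x ∈ S, ∀ y : K, y ^ p - y = f.eval x → y ^ p ^ (2 * m) = y) :
    p * S.card ≤ p ^ (2 * m) + (2 * p * d + 4) * p ^ m := by
  classical
  have hp0 := hp.out.pos
  set b := p ^ m with hb
  have hq : p ^ (2 * m) = b * b := by rw [hb, ← pow_add]; congr 1; ring
  set A := p * d with hA
  have hcube : A + 5 ≤ (A + 5) ^ 3 := Nat.le_self_pow (by norm_num) _
  set l := b - 1 with hl
  set r := b + 2 * A + 3 with hr
  let T := Tset p d l ×ˢ Tset p d r
  let S0 := Tset p d (b * l + r)
  let term : (ℕ × ℕ) × (ℕ × ℕ) → K[X][X] := fun t =>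
    C (X ^ (b * t.1.1 + t.2.1)) * red p f (b * t.1.2 + t.2.2)
  -- a nonzero combination that reduces to zero
  obtain ⟨c, hc0, hc⟩ : ∃ c : T → K, c ≠ 0 ∧ ∀ s : S0,
      ∑ t : T, c t * ((term t.1).coeff s.1.2).coeff s.1.1 = 0 := by
    let Φ : (T → K) →ₗ[K] (S0 → K) :=
      { toFun := fun c s => ∑ t : T, c t * ((term t.1).coeff s.1.2).coeff s.1.1
        map_add' := fun c c' => by ext s; simp [add_mul, Finset.sum_add_distrib]
        map_smul' := fun a c => by ext s; simp [mul_assoc, Finset.mul_sum] }
    have hdim : Module.finrank K (S0 → K) < Module.finrank K (T → K) := by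
      simp only [Module.finrank_pi, Fintype.card_coe, T, S0, Finset.card_product]
      have h1 := le_card_Tset p (d := d) (W := l) (by rw [hl, ← hA]; omega)
      have h2 := le_card_Tset p (d := d) (W := r) (by rw [hr, ← hA]; omega)
      have h3 := card_Tset_le p hd hdp (b * l + r)
      refine lt_of_le_of_lt h3 (lt_of_lt_of_le ?_ (Nat.mul_le_mul h1 h2))
      obtain ⟨B', hB'⟩ : ∃ B', b = A + 1 + B' := ⟨b - (A + 1), by omega⟩
      rw [← hA, hl, hr, show b - 1 - A = B' by omega,
        show b + 2 * A + 3 - A = b + A + 3 by omega, show b - 1 = A + B' by omega, hB']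
      have h4 : (A + 5) ^ 3 ≤ A + 1 + B' := hB' ▸ hbig
      nlinarith
    obtain ⟨c, hc, hc0⟩ :=
      (LinearMap.ker Φ).exists_mem_ne_zero_of_ne_bot (LinearMap.ker_ne_bot_of_finrank_lt hdim)
    exact ⟨c, hc0, fun s => congrFun (LinearMap.mem_ker.1 hc) s⟩
  have hF : ∑ t : T, C (C (c t)) * term t.1 = 0 := by
    ext j i
    simp only [finsetSum_coeff, coeff_C_mul, coeff_zero]
    by_cases hs : ((i, j) : ℕ × ℕ) ∈ S0
    · exact hc ⟨(i, j), hs⟩
    · refine Finset.sum_eq_zero fun t _ => mul_eq_zero_of_right _ ?_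
      by_contra hne
      apply hs
      obtain ⟨⟨⟨i1, j1⟩, ⟨i2, j2⟩⟩, ht⟩ := t
      simp only [T, Finset.mem_product, mem_Tset p hp0] at ht
      simp only [term, coeff_C_mul, coeff_X_pow_mul'] at hne
      split_ifs at hne with hi
      · obtain ⟨hJ1, hJ2, -⟩ := red_spec p f hfd hd (b * j1 + j2)
        refine (mem_Tset p hp0).2 ⟨?_, ?_⟩
        · by_contra hj; rw [hJ1 j (not_lt.1 hj)] at hne; simp at hne
        · have h1 := hJ2 _ _ hne
          obtain ⟨i', rfl⟩ := Nat.exists_eq_add_of_le hi
          simp only [Nat.add_sub_cancel_left] at h1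
          show (b * i1 + i2 + i') * p + j * d ≤ b * l + r
          nlinarith [Nat.mul_le_mul_left b ht.1.2]
      · exact absurd rfl hne
  -- the `b`-th root of it
  choose a ha using fun t : T => IsAlgClosed.exists_pow_nat_eq (c t) (pow_pos hp0 m)
  let term' : (ℕ × ℕ) × (ℕ × ℕ) → K[X][X] := fun t =>
    C (X ^ (t.1.1 + b * t.2.1)) * red p f (t.1.2 + b * t.2.2)
  set G := ∑ t : T, C (C (a t)) * term' t.1 with hG
  let w : T → ℕ := fun t =>
    (t.1.1.1 * p + t.1.1.2 * d) + b * (t.1.2.1 * p + t.1.2.2 * d)
  have hterm : ∀ (t : T) (i j : ℕ), ((term' t.1).coeff j).coeff i ≠ 0 →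
      j < p ∧ i * p + j * d ≤ w t := by
    rintro ⟨⟨⟨i1, j1⟩, ⟨i2, j2⟩⟩, ht⟩ i j hne
    simp only [term', coeff_C_mul, coeff_X_pow_mul'] at hne
    split_ifs at hne with hi
    · obtain ⟨hJ1, hJ2, -⟩ := red_spec p f hfd hd (j1 + b * j2)
      refine ⟨?_, ?_⟩
      · by_contra hj; rw [hJ1 j (not_lt.1 hj)] at hne; simp at hne
      · have h1 := hJ2 _ _ hne
        obtain ⟨i', rfl⟩ := Nat.exists_eq_add_of_le hi
        simp only [Nat.add_sub_cancel_left] at h1
        simp only [w]
        nlinarith
    · exact absurd rfl hne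
  have hw_inj : Function.Injective w := by
    rintro ⟨⟨⟨i1, j1⟩, ⟨i2, j2⟩⟩, ht⟩ ⟨⟨⟨i1', j1'⟩, ⟨i2', j2'⟩⟩, ht'⟩ h
    simp only [T, Finset.mem_product, mem_Tset p hp0] at ht ht'
    simp only [w] at h
    have hb0 : 0 < b := pow_pos hp0 m
    have e1 := congrArg (· % b) h
    simp only [Nat.add_mul_mod_self_left] at e1
    rw [Nat.mod_eq_of_lt (by omega), Nat.mod_eq_of_lt (by omega)] at e1
    rw [e1] at h
    have e2 := Nat.eq_of_mul_eq_mul_left hb0 (Nat.add_left_cancel h)
    obtain ⟨rfl, rfl⟩ := weight_inj p hd hdp ht.1.1 ht'.1.1 e1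
    obtain ⟨rfl, rfl⟩ := weight_inj p hd hdp ht.2.1 ht'.2.1 e2
    rfl
  obtain ⟨j0, hj0⟩ : ∃ j0, G.coeff j0 ≠ 0 := by
    have hne : (univ.filter fun t : T => a t ≠ 0).Nonempty := by
      by_contra h
      rw [Finset.not_nonempty_iff_eq_empty, Finset.filter_eq_empty_iff] at h
      apply hc0
      funext t
      rw [← ha t, not_not.1 (h (mem_univ t)), zero_pow (pow_pos hp0 m).ne', Pi.zero_apply]
    obtain ⟨t0, ht0, hmax⟩ := Finset.exists_max_image _ w hne
    obtain ⟨⟨⟨i1, j1⟩, ⟨i2, j2⟩⟩, htm⟩ := t0
    set t0 : T := ⟨((i1, j1), (i2, j2)), htm⟩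
    set J := j1 + b * j2
    refine ⟨J % p, fun h0 => ?_⟩
    have h1 := congrArg (fun q => coeff q (i1 + b * i2 + J / p * d)) h0
    simp only [hG, finsetSum_coeff, coeff_C_mul, coeff_zero] at h1
    rw [Finset.sum_eq_single t0 ?_ (fun h => absurd (mem_univ t0) h)] at h1
    · simp only [term', t0, coeff_C_mul, coeff_X_pow_mul', Nat.le_add_right, if_true,
        Nat.add_sub_cancel_left] at h1
      exact mul_ne_zero (Finset.mem_filter.1 ht0).2 (red_spec p f hfd hd J).2.2 h1
    · intro t _ hne'
      by_cases hat : a t = 0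
      · rw [hat, zero_mul]
      refine mul_eq_zero_of_right _ ?_
      by_contra h
      have h2 := (hterm t _ _ h).2
      have h3 : w t < w t0 := lt_of_le_of_ne
        (hmax t (Finset.mem_filter.2 ⟨mem_univ _, hat⟩)) fun e => hne' (hw_inj e)
      have h4 : (i1 + b * i2 + J / p * d) * p + J % p * d = w t0 := by
        have hdm := Nat.div_add_mod J p
        have h5 : J / p * d * p + J % p * d = J * d := by
          calc J / p * d * p + J % p * d = (p * (J / p) + J % p) * d := by ring
            _ = J * d := by rw [hdm]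
        simp only [w, t0]
        rw [add_mul, add_assoc, h5]; simp only [J]; ring
      omega
  -- degree bound
  have hdeg : p * (G.coeff j0).natDegree ≤ l + b * r := by
    have hlc : (G.coeff j0).coeff (G.coeff j0).natDegree ≠ 0 := leadingCoeff_ne_zero.2 hj0
    generalize (G.coeff j0).natDegree = i at hlc
    simp only [hG, finsetSum_coeff, coeff_C_mul] at hlc
    obtain ⟨t, -, ht⟩ := Finset.exists_ne_zero_of_sum_ne_zero hlc
    have h1 := (hterm t _ _ (right_ne_zero_of_mul ht)).2
    obtain ⟨⟨⟨i1, j1⟩, ⟨i2, j2⟩⟩, htm⟩ := t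
    simp only [T, Finset.mem_product, mem_Tset p hp0] at htm
    simp only [w] at h1
    have h2 := Nat.mul_le_mul_left b htm.2.2
    rw [mul_comm p i]
    omega
  -- every point of `S` is a root
  have hroots : S.val ⊆ (G.coeff j0).roots := by
    intro x hxS
    rw [mem_roots hj0, IsRoot.def]
    obtain ⟨y0, hy0⟩ := IsAlgClosed.exists_root (X ^ p - X - C (f.eval x) : K[X]) (by
      have : (X ^ p - X - C (f.eval x) : K[X]).natDegree = p := by
        rw [natDegree_sub_C, natDegree_sub_eq_left_of_natDegree_lt]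
        · exact natDegree_X_pow p
        · rw [natDegree_X_pow, natDegree_X]; exact hp.out.one_lt
      intro h0
      rw [natDegree_eq_zero_iff_degree_le_zero.2 h0.le] at this
      omega)
    simp only [IsRoot.def, eval_sub, eval_pow, eval_X, eval_C, sub_eq_zero] at hy0
    have hG0 : ∀ y : K, y ^ p - y = f.eval x → ev x y G = 0 := by
      intro y hyy
      have hbx := hx x hxS
      have hby := hy x hxS y hyy
      have hzero := congrArg (ev x y) hF
      refine pow_eq_zero_iff (pow_pos hp0 m).ne' |>.1 ?_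
      rw [hG, map_sum]
      have : ExpChar K p := ExpChar.prime hp.out
      rw [sum_pow_char_pow]
      refine Eq.trans (Finset.sum_congr rfl fun t _ => ?_) ((map_sum _ _ _).symm.trans (hzero.trans (map_zero _)))
      obtain ⟨⟨⟨i1, j1⟩, ⟨i2, j2⟩⟩, htm⟩ := t
      simp only [term, term', map_mul, ev_red p f hyy]
      have eC : ∀ q : K[X], ev x y (C q) = q.eval x := fun q => eval₂_C _ _
      simp only [eC, eval_C, mul_pow, pow_add, eval_mul, eval_pow, eval_X, ← pow_mul, ← hb]
      rw [mul_comm i1 b, mul_comm j1 b,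
        show b * i2 * b = p ^ (2 * m) * i2 by rw [hq]; ring,
        show b * j2 * b = p ^ (2 * m) * j2 by rw [hq]; ring,
        pow_mul x (p ^ (2 * m)), pow_mul y (p ^ (2 * m)), hbx, hby, hb, ha]
    have hzero : (G.map (evalRingHom x)) = 0 := by
      refine eq_zero_of_natDegree_lt_card_of_eval_eq_zero _ (ι := Fin p)
        (f := fun i => y0 + ((i : ℕ) : K)) ?_ ?_ ?_
      · intro i i' h
        refine Fin.ext ?_
        have h' : ((i : ℕ) : K) = ((i' : ℕ) : K) := add_left_cancel h
        exact Nat.ModEq.eq_of_lt_of_lt ((CharP.natCast_eq_natCast K p).1 h') i.2 i'.2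
      · intro i
        rw [eval_map]
        refine hG0 _ ?_
        have : ExpChar K p := ExpChar.prime hp.out
        rw [add_pow_char, ← frobenius_def p ((i : ℕ) : K), map_natCast]
        linear_combination hy0
      · rw [Fintype.card_fin]
        refine lt_of_le_of_lt (natDegree_map_le.trans ?_) (Nat.sub_lt hp0 one_pos)
        refine natDegree_le_iff_coeff_eq_zero.2 fun j hj => ?_
        simp only [hG, finsetSum_coeff, coeff_C_mul]
        refine Finset.sum_eq_zero fun t _ => ?_
        rw [show (term' t.1).coeff j = 0 from ?_, mul_zero]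
        ext i
        rw [coeff_zero]
        by_contra hne
        have := (hterm t i j hne).1
        omega
    have := congrArg (fun P => coeff P j0) hzero
    simpa [coeff_map] using this
  have hcard : S.card ≤ (G.coeff j0).natDegree :=
    (Multiset.card_le_card ((Multiset.le_iff_subset S.nodup).2 hroots)).trans (card_roots' _)
  calc p * S.card ≤ l + b * r := (Nat.mul_le_mul_left p hcard).trans hdeg
    _ ≤ b * b + (2 * p * d + 4) * b := by
        rw [hr, mul_assoc 2 p d, ← hA]
        calc l + b * (b + 2 * A + 3) ≤ b + b * (b + 2 * A + 3) := by omega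
          _ = b * b + (2 * A + 4) * b := by ring
    _ = _ := by rw [hq, hb]

end Stepanov

end

end Vale.Agent.P042.Upper.WeilProof
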