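import Vale.Agent.P042.Upper.Weil.Newton
import Vale.Agent.P042.Upper.Weil.Stepanov

/-!
The L-polynomial of an additive character sum and Weil's bound.
-/

namespace Vale.Agent.P042.Upper.WeilProof

open Polynomial Finset Filter Topology

noncomputable section

/-! ### Frobenius invariant multisets -/

section Invariant

variable (p : ℕ) [hp : Fact p.Prime]


instance : ExpChar (AlgebraicClosure (ZMod p)) p := ExpChar.prime hp.out

/-- Frobenius. -/
def fr : (AlgebraicClosure (ZMod p)) →+* (AlgebraicClosure (ZMod p)) := frobenius (AlgebraicClosure (ZMod p)) p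

lemma fr_apply (z : (AlgebraicClosure (ZMod p))) : fr p z = z ^ p := rfl

lemma fr_iterate (i : ℕ) (z : (AlgebraicClosure (ZMod p))) : (fr p)^[i] z = z ^ p ^ i := by
  induction i with
  | zero => simp
  | succ i ih => rw [Function.iterate_succ_apply', ih, fr_apply, ← pow_mul, pow_succ]

lemma fr_injective : Function.Injective (fr p) := (fr p).injective

/-- The prime field coordinate of a fixed point. -/
def coord (z : (AlgebraicClosure (ZMod p))) : ZMod p := Function.invFun (algebraMap (ZMod p) (AlgebraicClosure (ZMod p))) z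

lemma exists_of_fixed {z : (AlgebraicClosure (ZMod p))} (h : fr p z = z) : ∃ a : ZMod p, algebraMap (ZMod p) (AlgebraicClosure (ZMod p)) a = z := by
  classical
  let S : Finset (AlgebraicClosure (ZMod p)) := univ.image (algebraMap (ZMod p) (AlgebraicClosure (ZMod p)))
  have hcard : S.card = p := by
    rw [Finset.card_image_of_injective _ (algebraMap (ZMod p) (AlgebraicClosure (ZMod p))).injective, Finset.card_univ,
      ZMod.card]
  have hP : (X ^ p - X : ((AlgebraicClosure (ZMod p)))[X]) ≠ 0 := FiniteField.X_pow_card_sub_X_ne_zero _ hp.out.one_lt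
  have hdeg : (X ^ p - X : ((AlgebraicClosure (ZMod p)))[X]).natDegree = p :=
    FiniteField.X_pow_card_sub_X_natDegree_eq _ hp.out.one_lt
  by_contra hno
  push Not at hno
  have hzS : z ∉ S := by
    simp only [S, Finset.mem_image, mem_univ, true_and, not_exists]
    exact hno
  have hsub : (insert z S).val ⊆ (X ^ p - X : ((AlgebraicClosure (ZMod p)))[X]).roots := by
    intro w hw
    rw [mem_roots hP, IsRoot.def, eval_sub, eval_pow, eval_X, sub_eq_zero]
    simp only [Finset.mem_val, Finset.mem_insert, S, Finset.mem_image, mem_univ, true_and] at hw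
    rcases hw with rfl | ⟨a, rfl⟩
    · exact h
    · rw [← map_pow, ZMod.pow_card]
  have := (Multiset.card_le_card ((Multiset.le_iff_subset (insert z S).nodup).2 hsub)).trans
    (card_roots' _)
  rw [hdeg, Finset.card_val, Finset.card_insert_of_notMem hzS, hcard] at this
  omega

lemma coord_algebraMap (a : ZMod p) : coord p (algebraMap (ZMod p) (AlgebraicClosure (ZMod p)) a) = a :=
  Function.leftInverse_invFun (algebraMap (ZMod p) (AlgebraicClosure (ZMod p))).injective a

lemma coord_spec {z : (AlgebraicClosure (ZMod p))} (h : fr p z = z) : algebraMap (ZMod p) (AlgebraicClosure (ZMod p)) (coord p z) = z :=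
  Function.invFun_eq (exists_of_fixed p h)

lemma coord_add {z w : (AlgebraicClosure (ZMod p))} (hz : fr p z = z) (hw : fr p w = w) :
    coord p (z + w) = coord p z + coord p w := by
  conv_lhs => rw [← coord_spec p hz, ← coord_spec p hw, ← map_add, coord_algebraMap]

/-- The roots of the monic polynomial with given lower coefficients. -/
def rootsOf {n : ℕ} (v : Fin n → ZMod p) : Multiset (AlgebraicClosure (ZMod p)) :=
  ((X ^ n + ∑ i : Fin n, C (v i) * X ^ (i : ℕ)).map (algebraMap (ZMod p) (AlgebraicClosure (ZMod p)))).roots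

lemma rootsOf_spec {n : ℕ} (v : Fin n → ZMod p) :
    Multiset.card (rootsOf p v) = n ∧
      ((rootsOf p v).map fun t => X - C t).prod =
        (X ^ n + ∑ i : Fin n, C (v i) * X ^ (i : ℕ)).map (algebraMap (ZMod p) (AlgebraicClosure (ZMod p))) := by
  set g := X ^ n + ∑ i : Fin n, C (v i) * X ^ (i : ℕ)
  have hlt := degree_sum_fin_lt v
  have hm : g.Monic := monic_X_pow_add hlt
  have hn : g.natDegree = n := by
    have : g.degree = n := by
      rw [degree_add_eq_left_of_degree_lt (by rwa [degree_X_pow]), degree_X_pow]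
    exact natDegree_eq_of_degree_eq_some this
  have hs : (g.map (algebraMap (ZMod p) (AlgebraicClosure (ZMod p)))).Splits := IsAlgClosed.splits _
  refine ⟨?_, (hs.eq_prod_roots_of_monic (hm.map _)).symm⟩
  show Multiset.card (g.map (algebraMap (ZMod p) (AlgebraicClosure (ZMod p)))).roots = n
  rw [← hs.natDegree_eq_card_roots, natDegree_map, hn]

lemma coeff_lower {n : ℕ} (v : Fin n → ZMod p) (i : Fin n) :
    (X ^ n + ∑ j : Fin n, C (v j) * X ^ (j : ℕ)).coeff i = v i := by
  rw [coeff_add, coeff_X_pow, if_neg (by have := i.2; omega), zero_add, finsetSum_coeff,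
    Finset.sum_eq_single i]
  · simp
  · intro j _ hj
    rw [coeff_C_mul, coeff_X_pow, if_neg (fun h => hj (Fin.ext h.symm)), mul_zero]
  · simp

lemma rootsOf_injective (n : ℕ) : Function.Injective (rootsOf p (n := n)) := by
  intro v w h
  have h1 := (rootsOf_spec p v).2
  rw [h, (rootsOf_spec p w).2] at h1
  have h2 := map_injective _ (algebraMap (ZMod p) (AlgebraicClosure (ZMod p))).injective h1
  funext i
  rw [← coeff_lower p v i, ← coeff_lower p w i, h2]

/-- The invariant multisets of size `n`. -/
def mset (n : ℕ) : Finset (Multiset (AlgebraicClosure (ZMod p))) := by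
  classical exact univ.image (rootsOf p (n := n))

lemma mem_mset {n : ℕ} {R : Multiset (AlgebraicClosure (ZMod p))} :
    R ∈ mset p n ↔ Multiset.card R = n ∧ R.map (fr p) = R := by
  classical
  rw [mset, Finset.mem_image]
  simp only [mem_univ, true_and]
  constructor
  · rintro ⟨v, rfl⟩
    obtain ⟨hc, he⟩ := rootsOf_spec p v
    refine ⟨hc, ?_⟩
    have hfix : ∀ q : (ZMod p)[X],
        (q.map (algebraMap (ZMod p) (AlgebraicClosure (ZMod p)))).map (fr p) = q.map (algebraMap (ZMod p) (AlgebraicClosure (ZMod p))) := by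
      intro q
      rw [Polynomial.map_map]
      congr 1
      ext a
      rw [RingHom.comp_apply, fr_apply, ← map_pow, ZMod.pow_card]
    have h2 := congrArg (Polynomial.map (fr p)) he
    rw [hfix, ← he, Polynomial.map_multiset_prod, Multiset.map_map] at h2
    simp only [Function.comp_def, Polynomial.map_sub, map_X, map_C] at h2
    have h3 := congrArg Polynomial.roots h2
    have e : (rootsOf p v).map (fun t => X - C (fr p t)) =
        ((rootsOf p v).map (fr p)).map fun t => X - C t := by simp [Multiset.map_map]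
    rwa [roots_multiset_prod_X_sub_C, e, roots_multiset_prod_X_sub_C] at h3
  · rintro ⟨hc, hf⟩
    set P := (R.map fun t => X - C t).prod with hP
    have hPm : P.Monic := monic_multiset_prod_of_monic _ _ fun t _ => monic_X_sub_C t
    have hfix : ∀ i, fr p (P.coeff i) = P.coeff i := by
      intro i
      have h2 : P.map (fr p) = P := by
        conv_rhs => rw [hP, ← hf]
        rw [hP, Polynomial.map_multiset_prod, Multiset.map_map, Multiset.map_map]
        simp
      conv_rhs => rw [← h2, coeff_map]
    refine ⟨fun i => coord p (P.coeff i), ?_⟩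
    have hdeg : P.natDegree = n := by rw [hP, natDegree_multiset_prod_X_sub_C_eq_card, hc]
    have e : (X ^ n + ∑ i : Fin n, C (coord p (P.coeff i)) * X ^ (i : ℕ)).map
        (algebraMap (ZMod p) (AlgebraicClosure (ZMod p))) = P := by
      simp only [Polynomial.map_add, Polynomial.map_pow, map_X, Polynomial.map_sum,
        Polynomial.map_mul, map_C, coord_spec p (hfix _)]
      conv_rhs => rw [hPm.as_sum, hdeg]
      rw [Finset.sum_range (fun i => C (P.coeff i) * X ^ i)]
    show ((X ^ n + ∑ i : Fin n, C (coord p (P.coeff i)) * X ^ (i : ℕ)).map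
      (algebraMap (ZMod p) (AlgebraicClosure (ZMod p)))).roots = R
    rw [e, hP, roots_multiset_prod_X_sub_C]

/-- The orbit multiset of length `k`. -/
def orb (k : ℕ) (x : (AlgebraicClosure (ZMod p))) : Multiset (AlgebraicClosure (ZMod p)) := (Multiset.range k).map fun i => (fr p)^[i] x

lemma orb_invariant {k : ℕ} {x : (AlgebraicClosure (ZMod p))} (h : (fr p)^[k] x = x) :
    (orb p k x).map (fr p) = orb p k x := by
  have e : (orb p k x).map (fr p) = (Multiset.range k).map fun i => (fr p)^[i + 1] x := by
    simp [orb, Multiset.map_map, Function.iterate_succ_apply']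
  rw [e]
  have hsplit : ∀ g : ℕ → (AlgebraicClosure (ZMod p)), g 0 ::ₘ (Multiset.range k).map (fun i => g (i + 1)) =
      g k ::ₘ (Multiset.range k).map g := by
    intro g
    clear e h
    induction k with
    | zero => simp
    | succ k ih =>
      simp only [Multiset.range_succ, Multiset.map_cons]
      rw [Multiset.cons_swap, ih]
  have := hsplit fun i => (fr p)^[i] x
  simp only [Function.iterate_zero, id_eq, h] at this
  exact (Multiset.cons_inj_right _).1 this

lemma exists_period {R : Multiset (AlgebraicClosure (ZMod p))} (hR : R.map (fr p) = R) {x : (AlgebraicClosure (ZMod p))} (hx : x ∈ R) :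
    x ∈ Function.periodicPts (fr p) := by
  classical
  have hmem : ∀ i, (fr p)^[i] x ∈ R.toFinset := by
    intro i
    induction i with
    | zero => simpa using hx
    | succ i ih =>
      rw [Function.iterate_succ_apply', Multiset.mem_toFinset, ← hR]
      exact Multiset.mem_map_of_mem _ (Multiset.mem_toFinset.1 ih)
  obtain ⟨i, -, j, -, hne, he⟩ := Finset.exists_ne_map_eq_of_card_lt_of_maps_to
    (s := range (R.toFinset.card + 1)) (t := R.toFinset) (by simp) fun i _ => hmem i
  wlog hij : i < j generalizing i j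
  · exact this j i hne.symm he.symm (by omega)
  refine Function.mk_mem_periodicPts (n := j - i) (by omega) ?_
  refine (fr_injective p).iterate i ?_
  rw [← Function.iterate_add_apply, show i + (j - i) = j by omega, he]

/-- The number of orbit multisets through `x` inside `R` is the multiplicity of `x`. -/
lemma card_orbits {n : ℕ} {R : Multiset (AlgebraicClosure (ZMod p))} (hR : R ∈ mset p n) {x : (AlgebraicClosure (ZMod p))} (hx : x ∈ R)
    [DecidableEq (AlgebraicClosure (ZMod p))] :
    ((Finset.Icc 1 n).filter fun k => (fr p)^[k] x = x ∧ orb p k x ≤ R).card = R.count x := by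
  classical
  obtain ⟨hRn, hRf⟩ := (mem_mset p).1 hR
  have hper := exists_period p hRf hx
  set e := Function.minimalPeriod (fr p) x with he
  have he0 : 0 < e := Function.minimalPeriod_pos_of_mem_periodicPts hper
  have hex : (fr p)^[e] x = x := Function.iterate_minimalPeriod
  have hcount : ∀ i, R.count ((fr p)^[i] x) = R.count x := by
    intro i
    induction i with
    | zero => rfl
    | succ i ih =>
      conv_lhs => rw [← hRf]
      rw [Function.iterate_succ_apply', Multiset.count_map_eq_count' _ _ (fr_injective p), ih]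
  have horb : ∀ j, orb p (j * e) x = j • orb p e x := by
    intro j
    induction j with
    | zero => simp [orb]
    | succ j ih =>
      rw [add_one_mul, succ_nsmul, ← ih]
      simp only [orb, Multiset.range_add, Multiset.map_add, Multiset.map_map]
      congr 1
      refine Multiset.map_congr rfl fun i _ => ?_
      rw [Function.comp_apply, add_comm, Function.iterate_add_apply]
      congr 1
      have hp' : Function.IsPeriodicPt (fr p) (j * e) x :=
        (Function.isPeriodicPt_minimalPeriod _ _).const_mul j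
      exact hp'
  have hnd : (orb p e x).Nodup := by
    refine (Multiset.nodup_range e).map_on fun i hi j hj h => ?_
    exact Function.iterate_injOn_Iio_minimalPeriod
      (Multiset.mem_range.1 hi) (Multiset.mem_range.1 hj) h
  have hxe : x ∈ orb p e x := Multiset.mem_map.2 ⟨0, Multiset.mem_range.2 he0, rfl⟩
  have hle : ∀ j, orb p (j * e) x ≤ R ↔ j ≤ R.count x := by
    intro j
    rw [horb, Multiset.le_iff_count]
    constructor
    · intro h
      have := h x
      rwa [Multiset.count_nsmul, Multiset.count_eq_one_of_mem hnd hxe, mul_one] at this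
    · intro h y
      rw [Multiset.count_nsmul]
      by_cases hy : y ∈ orb p e x
      · rw [Multiset.count_eq_one_of_mem hnd hy, mul_one]
        obtain ⟨i, -, rfl⟩ := Multiset.mem_map.1 hy
        rw [hcount]; exact h
      · rw [Multiset.count_eq_zero_of_notMem hy, mul_zero]; exact Nat.zero_le _
  have hset : ((Finset.Icc 1 n).filter fun k => (fr p)^[k] x = x ∧ orb p k x ≤ R) =
      (Finset.Icc 1 (R.count x)).image (· * e) := by
    ext k
    simp only [Finset.mem_filter, Finset.mem_Icc, Finset.mem_image]
    constructor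
    · rintro ⟨⟨hk1, -⟩, hk, hkR⟩
      obtain ⟨j, rfl⟩ := (show Function.IsPeriodicPt (fr p) k x from hk).minimalPeriod_dvd
      rw [← he] at hkR hk1 ⊢
      refine ⟨j, ⟨Nat.pos_of_ne_zero fun h => by simp [h] at hk1, ?_⟩, mul_comm _ _⟩
      rwa [mul_comm, hle] at hkR
    · rintro ⟨j, ⟨hj1, hj2⟩, rfl⟩
      refine ⟨⟨Nat.mul_pos hj1 he0, ?_⟩, ?_, (hle j).2 hj2⟩
      · have := Multiset.card_le_card ((hle j).2 hj2)
        simpa [orb, hRn] using this
      · exact (Function.isPeriodicPt_minimalPeriod _ _).const_mul j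
  rw [hset, Finset.card_image_of_injective _ (fun a b h => Nat.eq_of_mul_eq_mul_right he0 h),
    Nat.card_Icc]
  omega

variable (ψ : AddChar (ZMod p) ℂ) (f : (ZMod p)[X])

/-- The polynomial over the algebraic closure. -/
def fK : ((AlgebraicClosure (ZMod p)))[X] := f.map (algebraMap (ZMod p) (AlgebraicClosure (ZMod p)))

lemma fr_eval (z : (AlgebraicClosure (ZMod p))) : fr p ((fK p f).eval z) = (fK p f).eval (fr p z) := by
  rw [fK, eval_map, eval_map, hom_eval₂]
  congr 1
  ext a
  rw [RingHom.comp_apply, fr_apply, ← map_pow, ZMod.pow_card]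

/-- The character of a multiset. -/
def chi (R : Multiset (AlgebraicClosure (ZMod p))) : ℂ := ψ (coord p (R.map fun z => (fK p f).eval z).sum)

lemma fixed_sum {R : Multiset (AlgebraicClosure (ZMod p))} (h : R.map (fr p) = R) :
    fr p (R.map fun z => (fK p f).eval z).sum = (R.map fun z => (fK p f).eval z).sum := by
  rw [map_multiset_sum, Multiset.map_map]
  conv_rhs => rw [← h, Multiset.map_map]
  simp only [Function.comp_def, fr_eval]

lemma chi_add {R H : Multiset (AlgebraicClosure (ZMod p))} (hR : R.map (fr p) = R) (hH : H.map (fr p) = H) :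
    chi p ψ f (R + H) = chi p ψ f R * chi p ψ f H := by
  rw [chi, chi, chi, Multiset.map_add, Multiset.sum_add,
    coord_add p (fixed_sum p f hR) (fixed_sum p f hH), ψ.map_add_eq_mul]

/-- The coefficients of the L-polynomial. -/
def lc (n : ℕ) : ℂ := ∑ R ∈ mset p n, chi p ψ f R

/-- The points fixed by the `k`-th power of Frobenius. -/
def fixk (k : ℕ) : Finset (AlgebraicClosure (ZMod p)) := by
  classical exact (X ^ p ^ k - X : ((AlgebraicClosure (ZMod p)))[X]).roots.toFinset

lemma mem_fixk {k : ℕ} (hk : 1 ≤ k) {x : (AlgebraicClosure (ZMod p))} : x ∈ fixk p k ↔ (fr p)^[k] x = x := by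
  classical
  rw [fixk, Multiset.mem_toFinset, mem_roots (FiniteField.X_pow_card_pow_sub_X_ne_zero _
    (by omega) hp.out.one_lt), IsRoot.def, eval_sub, eval_pow, eval_X, sub_eq_zero, fr_iterate]

lemma card_fixk {k : ℕ} (hk : 1 ≤ k) : (fixk p k).card = p ^ k := by
  classical
  have hP := galois_poly_separable (K := (AlgebraicClosure (ZMod p))) p (p ^ k) (dvd_pow_self p (by omega))
  rw [fixk, Multiset.toFinset_card_of_nodup (nodup_roots hP),
    ← (IsAlgClosed.splits _).natDegree_eq_card_roots,
    FiniteField.X_pow_card_pow_sub_X_natDegree_eq _ (by omega) hp.out.one_lt]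

/-- The sums over the extensions. -/
def sk (k : ℕ) : ℂ := ∑ x ∈ fixk p k, chi p ψ f (orb p k x)

lemma recursion (n : ℕ) :
    (n : ℂ) * lc p ψ f n = ∑ k ∈ Finset.Icc 1 n, sk p ψ f k * lc p ψ f (n - k) := by
  classical
  have h1 : ∀ k ∈ Finset.Icc 1 n, sk p ψ f k * lc p ψ f (n - k) =
      ∑ x ∈ fixk p k, ∑ R ∈ (mset p n).filter (fun R => orb p k x ≤ R), chi p ψ f R := by
    intro k hk
    rw [Finset.mem_Icc] at hk
    rw [sk, Finset.sum_mul]
    refine Finset.sum_congr rfl fun x hx => ?_
    have ho := orb_invariant p ((mem_fixk p hk.1).1 hx)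
    rw [lc, Finset.mul_sum]
    refine Finset.sum_bij' (fun H _ => orb p k x + H) (fun R _ => R - orb p k x) ?_ ?_ ?_ ?_ ?_
    · intro H hH
      obtain ⟨hc, hf⟩ := (mem_mset p).1 hH
      refine Finset.mem_filter.2 ⟨(mem_mset p).2 ⟨?_, ?_⟩, Multiset.le_add_right _ _⟩
      · simp [orb, hc]; omega
      · rw [Multiset.map_add, ho, hf]
    · intro R hR
      obtain ⟨hRm, hle⟩ := Finset.mem_filter.1 hR
      obtain ⟨hc, hf⟩ := (mem_mset p).1 hRm
      refine (mem_mset p).2 ⟨?_, ?_⟩
      · rw [Multiset.card_sub hle, hc]; simp [orb]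
      · have h2 := congrArg (Multiset.map (fr p)) (add_tsub_cancel_of_le hle)
        rw [Multiset.map_add, ho, hf] at h2
        conv_rhs => rw [← h2, add_tsub_cancel_left]
    · intro H _; simp
    · intro R hR; exact add_tsub_cancel_of_le (Finset.mem_filter.1 hR).2
    · intro H hH; rw [chi_add p ψ f ho ((mem_mset p).1 hH).2]
  rw [Finset.sum_congr rfl h1, lc, Finset.mul_sum]
  calc ∑ R ∈ mset p n, (n : ℂ) * chi p ψ f R
      = ∑ R ∈ mset p n, ∑ k ∈ Finset.Icc 1 n,
          ∑ x ∈ (fixk p k).filter (fun x => orb p k x ≤ R), chi p ψ f R := by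
        refine Finset.sum_congr rfl fun R hR => ?_
        simp only [Finset.sum_const, nsmul_eq_mul]
        rw [← Finset.sum_mul, ← Nat.cast_sum]
        congr 2
        have hx : ∀ k ∈ Finset.Icc 1 n, ((fixk p k).filter (fun x => orb p k x ≤ R)).card =
            (R.toFinset.filter fun x => (fr p)^[k] x = x ∧ orb p k x ≤ R).card := by
          intro k hk
          rw [Finset.mem_Icc] at hk
          congr 1
          ext x
          simp only [Finset.mem_filter, mem_fixk p hk.1, Multiset.mem_toFinset]
          refine ⟨fun h => ⟨?_, h⟩, fun h => h.2⟩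
          exact Multiset.mem_of_le h.2
            (Multiset.mem_map.2 ⟨0, Multiset.mem_range.2 hk.1, rfl⟩)
        rw [Finset.sum_congr rfl hx]
        simp only [Finset.card_filter]
        rw [Finset.sum_comm]
        conv_lhs => rw [← ((mem_mset p).1 hR).1, ← Multiset.toFinset_sum_count_eq]
        refine Finset.sum_congr rfl fun x hx => ?_
        rw [← card_orbits p hR (Multiset.mem_toFinset.1 hx), Finset.card_filter]
    _ = ∑ k ∈ Finset.Icc 1 n, ∑ x ∈ fixk p k,
          ∑ R ∈ (mset p n).filter (fun R => orb p k x ≤ R), chi p ψ f R := by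
        rw [Finset.sum_comm]
        refine Finset.sum_congr rfl fun k _ => ?_
        simp only [Finset.sum_filter]
        exact Finset.sum_comm

lemma lc_zero : lc p ψ f 0 = 1 := by
  classical
  have : mset p 0 = {0} := by
    ext R
    rw [mem_mset, Finset.mem_singleton]
    exact ⟨fun h => Multiset.card_eq_zero.1 h.1, fun h => by simp [h]⟩
  rw [lc, this, Finset.sum_singleton, chi]
  simp only [Multiset.map_zero, Multiset.sum_zero]
  rw [← map_zero (algebraMap (ZMod p) (AlgebraicClosure (ZMod p))), coord_algebraMap, ψ.map_zero_eq_one]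

variable {d : ℕ}

lemma lc_eq_zero (hψ : ψ ≠ 1) (hfd : f.natDegree = d) (hd : 1 ≤ d) (hdp : d < p) {n : ℕ}
    (hn : d ≤ n) : lc p ψ f n = 0 := by
  classical
  obtain ⟨b, hb⟩ := AddChar.ne_one_iff.1 hψ
  set u := f.coeff d * (d : ZMod p)
  have hu : u ≠ 0 := by
    refine mul_ne_zero ?_ ?_
    · rw [← hfd]; exact leadingCoeff_ne_zero.2 (fun h => by simp [h] at hfd; omega)
    · rw [Ne, ZMod.natCast_eq_zero_iff]
      exact fun h => absurd (Nat.le_of_dvd (by omega) h) (by omega)
  set δ : ZMod p := -(b / u)
  let i0 : Fin n := ⟨n - d, by omega⟩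
  let e : (Fin n → ZMod p) ≃ (Fin n → ZMod p) := Equiv.addRight (Pi.single i0 δ)
  have hshift : ∀ v, chi p ψ f (rootsOf p (e v)) = ψ b * chi p ψ f (rootsOf p v) := by
    intro v
    set R := rootsOf p v
    set R' := rootsOf p (e v)
    obtain ⟨hc, hP⟩ := rootsOf_spec p v
    obtain ⟨hc', hP'⟩ := rootsOf_spec p (e v)
    have hcc : ∀ a, 1 ≤ a → a ≤ d →
        cc R' a = cc R a + if a = d then algebraMap (ZMod p) (AlgebraicClosure (ZMod p)) δ else 0 := by
      intro a ha1 had
      rw [← coeff_prod_eq_cc R (by rw [hc]; omega), ← coeff_prod_eq_cc R' (by rw [hc']; omega),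
        hP, hP', hc, hc', coeff_map, coeff_map]
      have hi : n - a < n := by omega
      rw [coeff_lower p (e v) ⟨n - a, hi⟩, coeff_lower p v ⟨n - a, hi⟩]
      simp only [e, Equiv.coe_addRight, Pi.add_apply, map_add, Pi.single_apply, i0, Fin.mk.injEq]
      congr 1
      by_cases h : a = d
      · subst h; rw [if_pos rfl, if_pos rfl]
      · rw [if_neg (show n - a ≠ n - d by omega), if_neg h, map_zero]
    have hpp : ∀ k, k ≤ d → pp R' k = pp R k - if k = d then
        (d : (AlgebraicClosure (ZMod p))) * algebraMap (ZMod p) (AlgebraicClosure (ZMod p)) δ else 0 := by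
      intro k
      induction k using Nat.strong_induction_on with
      | _ k ih =>
        intro hk
        rcases k with _ | k
        · rw [if_neg (by omega), sub_zero]; simp [pp, hc, hc', R, R']
        have h1 := newton R (k + 1)
        have h2 := newton R' (k + 1)
        rw [Finset.sum_range_succ', cc_zero, one_mul, Nat.sub_zero] at h1 h2
        have h3 : ∀ a ∈ range k, cc R' (a + 1) * pp R' (k + 1 - (a + 1)) =
            cc R (a + 1) * pp R (k + 1 - (a + 1)) := by
          intro a ha
          rw [Finset.mem_range] at ha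
          rw [hcc _ (by omega) (by omega), if_neg (by omega), add_zero,
            ih _ (by omega) (by omega), if_neg (by omega), sub_zero]
        rw [Finset.sum_congr rfl h3, hcc _ (by omega) hk] at h2
        split_ifs with h
        · rw [if_pos h] at h2
          rw [← h]
          linear_combination h2 - h1
        · rw [if_neg h] at h2
          linear_combination h2 - h1
    have hS : ∀ T : Multiset (AlgebraicClosure (ZMod p)), (T.map fun z => (fK p f).eval z).sum =
        ∑ k ∈ range (d + 1), (fK p f).coeff k * pp T k := by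
      intro T
      simp only [pp, ← Multiset.sum_map_mul_left]
      rw [← Multiset.sum_map_sum]
      refine congrArg Multiset.sum (Multiset.map_congr rfl fun z _ => ?_)
      exact eval_eq_sum_range' (by rw [fK, natDegree_map, hfd]; omega) z
    have hval : (R'.map fun z => (fK p f).eval z).sum =
        (R.map fun z => (fK p f).eval z).sum + algebraMap (ZMod p) (AlgebraicClosure (ZMod p)) b := by
      rw [hS, hS, Finset.sum_range_succ, Finset.sum_range_succ, hpp d le_rfl, if_pos rfl]
      rw [Finset.sum_congr rfl fun k hk => by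
        rw [hpp k (by have := Finset.mem_range.1 hk; omega),
          if_neg (by have := Finset.mem_range.1 hk; omega), sub_zero]]
      have hb' : algebraMap (ZMod p) (AlgebraicClosure (ZMod p)) b = -((fK p f).coeff d * ((d : (AlgebraicClosure (ZMod p))) *
          algebraMap (ZMod p) (AlgebraicClosure (ZMod p)) δ)) := by
        rw [fK, coeff_map, ← map_natCast (algebraMap (ZMod p) (AlgebraicClosure (ZMod p))), ← map_mul, ← map_mul, ← map_neg]
        congr 1
        simp only [δ, ← mul_assoc]
        rw [mul_neg, neg_neg, mul_div_cancel₀ _ hu]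
      rw [hb']; ring
    have hfixR : R.map (fr p) = R := ((mem_mset p).1 (Finset.mem_image.2 ⟨v, mem_univ _, rfl⟩)).2
    rw [chi, chi, hval, coord_add p (fixed_sum p f hfixR) (by rw [fr_apply, ← map_pow, ZMod.pow_card]),
      coord_algebraMap, ψ.map_add_eq_mul, mul_comm]
  have hsum : lc p ψ f n = ψ b * lc p ψ f n := by
    simp only [lc, mset, Finset.sum_image (rootsOf_injective p n).injOn]
    rw [Finset.mul_sum]
    refine Eq.trans (Equiv.sum_comp e fun v => chi p ψ f (rootsOf p v)).symm ?_
    exact Finset.sum_congr rfl fun v _ => hshift v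
  have h0 : (1 - ψ b) * lc p ψ f n = 0 := by rw [sub_mul, one_mul]; exact sub_eq_zero.2 hsum
  exact (mul_eq_zero.1 h0).resolve_left (sub_ne_zero.2 (Ne.symm hb))

lemma sk_eq_neg_power_sum (hψ : ψ ≠ 1) (hfd : f.natDegree = d) (hd : 1 ≤ d) (hdp : d < p) :
    ∃ ω : Fin (d - 1) → ℂ, ∀ k, 1 ≤ k → sk p ψ f k = -∑ i, ω i ^ k := by
  classical
  set D := d - 1 with hD
  set v : Fin D → ℂ := fun i => lc p ψ f (D - i)
  set g : ℂ[X] := X ^ D + ∑ i : Fin D, C (v i) * X ^ (i : ℕ)
  have hlt := degree_sum_fin_lt v
  have hm : g.Monic := monic_X_pow_add hlt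
  have hn : g.natDegree = D := natDegree_eq_of_degree_eq_some
    (by rw [degree_add_eq_left_of_degree_lt (by rwa [degree_X_pow]), degree_X_pow])
  have hs : g.Splits := IsAlgClosed.splits _
  have hcard : Multiset.card g.roots = D := by rw [← hs.natDegree_eq_card_roots, hn]
  have hprod := hs.eq_prod_roots_of_monic hm
  have hcc : ∀ a, cc g.roots a = lc p ψ f a := by
    intro a
    by_cases ha : a ≤ D
    · rw [← coeff_prod_eq_cc g.roots (hcard.symm ▸ ha), ← hprod, hcard]
      rcases Nat.eq_zero_or_pos a with rfl | ha0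
      · rw [Nat.sub_zero, lc_zero]; exact hn ▸ hm.coeff_natDegree
      · have hi : D - a < D := by omega
        rw [coeff_add, coeff_X_pow, if_neg (by omega), zero_add, finsetSum_coeff,
          Finset.sum_eq_single ⟨D - a, hi⟩]
        · simp [v, Nat.sub_sub_self ha]
        · intro j _ hj
          rw [coeff_C_mul, coeff_X_pow, if_neg (fun h => hj (Fin.ext h.symm)), mul_zero]
        · simp
    · rw [lc_eq_zero p ψ f hψ hfd hd hdp (by omega), cc, Multiset.esymm,
        Multiset.powersetCard_eq_empty _ (by omega)]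
      simp
  have hsk : ∀ k, 1 ≤ k → sk p ψ f k = -pp g.roots k := by
    intro k
    induction k using Nat.strong_induction_on with
    | _ k ih =>
      intro hk
      have h1 := newton g.roots k
      simp only [hcc] at h1
      have h2 := recursion p ψ f k
      obtain ⟨k', rfl⟩ : ∃ k', k = k' + 1 := ⟨k - 1, by omega⟩
      rw [Finset.sum_range_succ', lc_zero, one_mul, Nat.sub_zero] at h1
      rw [Finset.sum_Icc_succ_top (by omega), Nat.sub_self, lc_zero, mul_one] at h2
      have h3 : ∑ a ∈ range k', lc p ψ f (a + 1) * pp g.roots (k' + 1 - (a + 1)) =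
          -∑ j ∈ Finset.Icc 1 k', sk p ψ f j * lc p ψ f (k' + 1 - j) := by
        rw [← Finset.sum_neg_distrib]
        refine Finset.sum_bij' (fun a _ => k' - a) (fun j _ => k' - j) ?_ ?_ ?_ ?_ ?_
        · intro a ha; simp only [Finset.mem_range] at ha; rw [Finset.mem_Icc]; omega
        · intro j hj; rw [Finset.mem_Icc] at hj; simp only [Finset.mem_range]; omega
        · intro a ha; simp only [Finset.mem_range] at ha; omega
        · intro j hj; rw [Finset.mem_Icc] at hj; omega
        · intro a ha
          simp only [Finset.mem_range] at ha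
          rw [ih (k' - a) (by omega) (by omega), show k' + 1 - (k' - a) = a + 1 by omega,
            show k' + 1 - (a + 1) = k' - a by omega]
          ring
      rw [h3] at h1
      linear_combination -h2 + h1
  obtain ⟨l, hl⟩ : ∃ l : List ℂ, (l : Multiset ℂ) = g.roots := ⟨_, Multiset.coe_toList _⟩
  have hlen : l.length = D := by rw [← hcard, ← hl, Multiset.coe_card]
  refine ⟨fun i => l.get (i.cast hlen.symm), fun k hk => ?_⟩
  rw [hsk k hk, pp, ← hl, Multiset.map_coe, Multiset.sum_coe,
    Fintype.sum_equiv (finCongr hlen.symm) (fun i => l.get (i.cast hlen.symm) ^ k)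
      (fun j => l.get j ^ k) (fun i => rfl), ← List.sum_ofFn]
  congr 2
  exact (List.ofFn_getElem_eq_map l fun z => z ^ k).symm

lemma sk_bound (hψ : ψ ≠ 1) (hfd : f.natDegree = d) (hd : 1 ≤ d) (hdp : d < p) {m : ℕ}
    (hbig : (p * d + 5) ^ 3 ≤ p ^ m) :
    ‖sk p ψ f (2 * m)‖ ≤ 2 * (2 * p * d + 4) * (p : ℝ) ^ m := by
  classical
  have hm : 1 ≤ m := by
    by_contra h
    rw [show m = 0 by omega, pow_zero] at hbig
    have := Nat.le_self_pow (by norm_num : (3 : ℕ) ≠ 0) (p * d + 5)
    omega
  have h2m : 1 ≤ 2 * m := by omega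
  let tr : (AlgebraicClosure (ZMod p)) → ZMod p := fun x =>
    coord p ((orb p (2 * m) x).map fun z => (fK p f).eval z).sum
  set S : ZMod p → Finset (AlgebraicClosure (ZMod p)) := fun a => (fixk p (2 * m)).filter fun x => tr x = a
  set E := (2 * p * d + 4) * p ^ m
  have hS : ∀ a, p * (S a).card ≤ p ^ (2 * m) + E := by
    intro a
    rcases (S a).eq_empty_or_nonempty with h | ⟨x0, hx0⟩
    · simp [h]
    set g := fK p f - C ((fK p f).eval x0)
    have hgd : g.natDegree = d := by rw [natDegree_sub_C, fK, natDegree_map, hfd]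
    refine stepanov p g hgd hd hdp hbig (S a) (fun x hx => ?_) fun x hx y hy => ?_
    · rw [← fr_iterate, ← mem_fixk p h2m]; exact (Finset.mem_filter.1 hx).1
    · obtain ⟨hx1, hx2⟩ := Finset.mem_filter.1 hx
      obtain ⟨hx01, hx02⟩ := Finset.mem_filter.1 hx0
      have hinv : ∀ z ∈ fixk p (2 * m), (orb p (2 * m) z).map (fr p) = orb p (2 * m) z :=
        fun z hz => orb_invariant p ((mem_fixk p h2m).1 hz)
      have heq : ((orb p (2 * m) x).map fun z => (fK p f).eval z).sum =
          ((orb p (2 * m) x0).map fun z => (fK p f).eval z).sum := by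
        rw [← coord_spec p (fixed_sum p f (hinv x hx1)), ← coord_spec p (fixed_sum p f (hinv x0 hx01))]
        exact congrArg _ (hx2.trans hx02.symm)
      have hit : ∀ i (z : (AlgebraicClosure (ZMod p))), (fr p)^[i] ((fK p f).eval z) = (fK p f).eval ((fr p)^[i] z) := by
        intro i z
        induction i with
        | zero => rfl
        | succ i ih => rw [Function.iterate_succ_apply', Function.iterate_succ_apply', ih, fr_eval]
      have htel : ∀ k, (fr p)^[k] y - y = ∑ i ∈ range k, (fr p)^[i] (y ^ p - y) := by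
        intro k
        induction k with
        | zero => simp
        | succ k ih =>
          rw [Finset.sum_range_succ, ← ih, iterate_map_sub, ← fr_apply, ← Function.iterate_succ_apply]
          ring
      rw [← fr_iterate, ← sub_eq_zero, htel, hy]
      simp only [g, eval_sub, eval_C, iterate_map_sub, hit, Finset.sum_sub_distrib]
      rw [sub_eq_zero]
      simp only [orb, Multiset.map_map, Function.comp_def] at heq
      exact heq
  have hsum : ∑ a, (S a).card = p ^ (2 * m) := by
    rw [← card_fixk p h2m]
    exact (Finset.card_eq_sum_card_fiberwise fun x _ => mem_univ (tr x)).symm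
  have hsk : sk p ψ f (2 * m) = ∑ a, ψ a * ((S a).card : ℂ) := by
    rw [sk, ← Finset.sum_fiberwise_of_maps_to (g := tr) (t := univ) fun x _ => mem_univ _]
    refine Finset.sum_congr rfl fun a _ => ?_
    rw [Finset.sum_congr rfl (g := fun _ => ψ a) fun x hx => ?_, Finset.sum_const, nsmul_eq_mul,
      mul_comm]
    show ψ (tr x) = ψ a
    rw [(Finset.mem_filter.1 hx).2]
  have hz : (∑ a, ψ a) = 0 := AddChar.sum_eq_zero_of_ne_one hψ
  have key : (p : ℂ) * sk p ψ f (2 * m) =
      ∑ a, ψ a * (((p * (S a).card : ℕ) : ℂ) - ((p ^ (2 * m) : ℕ) : ℂ)) := by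
    rw [hsk, Finset.mul_sum]
    simp only [mul_sub, Finset.sum_sub_distrib, ← Finset.sum_mul, hz, zero_mul, sub_zero]
    exact Finset.sum_congr rfl fun a _ => by push_cast; ring
  have hnorm : ∀ a, ‖ψ a * (((p * (S a).card : ℕ) : ℂ) - ((p ^ (2 * m) : ℕ) : ℂ))‖ ≤
      2 * (E : ℝ) - (((p * (S a).card : ℕ) : ℝ) - ((p ^ (2 * m) : ℕ) : ℝ)) := by
    intro a
    rw [norm_mul, AddChar.norm_apply, one_mul, ← Complex.ofReal_natCast, ← Complex.ofReal_natCast,
      ← Complex.ofReal_sub, Complex.norm_real, Real.norm_eq_abs, abs_le]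
    have h1 : ((p * (S a).card : ℕ) : ℝ) ≤ ((p ^ (2 * m) : ℕ) : ℝ) + (E : ℝ) := by
      exact_mod_cast hS a
    have h2 : (0 : ℝ) ≤ (E : ℝ) := Nat.cast_nonneg _
    constructor <;> linarith
  have htot : (p : ℝ) * ‖sk p ψ f (2 * m)‖ ≤ p * (2 * (E : ℝ)) := by
    rw [← Complex.norm_natCast, ← norm_mul, key]
    refine (norm_sum_le _ _).trans ((Finset.sum_le_sum fun a _ => hnorm a).trans (le_of_eq ?_))
    rw [Complex.norm_natCast, Finset.sum_sub_distrib, Finset.sum_sub_distrib, Finset.sum_const,
      Finset.sum_const, Finset.card_univ, ZMod.card, ← Nat.cast_sum, ← Finset.mul_sum, hsum]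
    simp only [nsmul_eq_mul, Nat.cast_mul, sub_self, sub_zero]
  have := le_of_mul_le_mul_left htot (by exact_mod_cast hp.out.pos)
  simpa [E, mul_assoc] using this

end Invariant

/-- **Weil's bound** for exponential sums of a polynomial modulo a prime. -/
theorem weil_bound {p : ℕ} [Fact p.Prime] (ψ : AddChar (ZMod p) ℂ) (hψ : ψ ≠ 1)
    (f : (ZMod p)[X]) (h1 : 1 ≤ f.natDegree) (h2 : f.natDegree < p) :
    ‖∑ x, ψ (f.eval x)‖ ≤ ((f.natDegree : ℝ) - 1) * Real.sqrt p := by
  classical
  have hp := (Fact.out : p.Prime)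
  obtain ⟨ω, hω⟩ := sk_eq_neg_power_sum p ψ f hψ rfl h1 h2
  have hp0 : (0 : ℝ) < p := by exact_mod_cast hp.pos
  have hu : ∀ i, ‖ω i ^ 2 / (p : ℂ)‖ ≤ 1 := by
    refine norm_le_of_power_sums_bounded (fun i => ω i ^ 2 / (p : ℂ))
      (2 * (2 * p * f.natDegree + 4)) ((p * f.natDegree + 5) ^ 3) fun m hm => ?_
    have hbig : (p * f.natDegree + 5) ^ 3 ≤ p ^ m := hm.trans (Nat.lt_pow_self hp.one_lt).le
    have hb := sk_bound p ψ f hψ rfl h1 h2 hbig
    have hm1 : 1 ≤ 2 * m := by
      have := Nat.le_self_pow (by norm_num : (3 : ℕ) ≠ 0) (p * f.natDegree + 5)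
      omega
    rw [hω _ hm1, norm_neg] at hb
    simp only [div_pow, ← pow_mul, ← Finset.sum_div, norm_div, norm_pow, Complex.norm_natCast]
    rw [div_le_iff₀ (pow_pos hp0 m)]
    exact_mod_cast hb
  have hωb : ∀ i, ‖ω i‖ ≤ Real.sqrt p := by
    intro i
    have := hu i
    rw [norm_div, norm_pow, Complex.norm_natCast, div_le_one hp0] at this
    exact Real.le_sqrt_of_sq_le this
  have hS1 : sk p ψ f 1 = ∑ x, ψ (f.eval x) := by
    have e : fixk p 1 = univ.image (algebraMap (ZMod p) (AlgebraicClosure (ZMod p))) := by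
      ext z
      rw [mem_fixk p le_rfl, Function.iterate_one, Finset.mem_image]
      simp only [mem_univ, true_and]
      exact ⟨exists_of_fixed p, fun ⟨a, ha⟩ => by rw [← ha, fr_apply, ← map_pow, ZMod.pow_card]⟩
    rw [sk, e, Finset.sum_image (algebraMap (ZMod p) _).injective.injOn]
    refine Finset.sum_congr rfl fun x _ => ?_
    simp [chi, orb, fK, eval_map, eval₂_at_apply, coord_algebraMap]
  rw [← hS1, hω 1 le_rfl, norm_neg]
  refine (norm_sum_le _ _).trans ?_
  simp only [pow_one]
  refine (Finset.sum_le_sum fun i _ => hωb i).trans (le_of_eq ?_)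
  rw [Finset.sum_const, Finset.card_univ, Fintype.card_fin, nsmul_eq_mul,
    Nat.cast_sub h1, Nat.cast_one]

end

end Vale.Agent.P042.Upper.WeilProof
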