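import Vale.Agent.P042.Upper.Basic
import Vale.Agent.P042.Upper.Weil.LPoly

/-!
Weil's bound for additive character sums of polynomials modulo a prime.
-/

open Finset Polynomial

namespace Vale.Agent.P042.Upper.Weil

noncomputable section

variable (p : ℕ) [Fact p.Prime]

/-- Weil's bound. -/
theorem weil_bound (g : (ZMod p)[X]) (h1 : 1 ≤ g.natDegree) (h2 : g.natDegree < p) :
    ‖∑ x : ZMod p, ee (((g.eval x).val : ℝ) / p)‖ ≤
      ((g.natDegree : ℝ) - 1) * Real.sqrt p := by
  have hψ : (ZMod.stdAddChar : AddChar (ZMod p) ℂ) ≠ 1 := by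
    intro h
    have h01 : (ZMod.stdAddChar : AddChar (ZMod p) ℂ) 1 = ZMod.stdAddChar (0 : ZMod p) := by
      simp [h]
    exact one_ne_zero (ZMod.injective_stdAddChar h01)
  refine le_of_eq_of_le ?_ (WeilProof.weil_bound _ hψ g h1 h2)
  congr 1
  refine Finset.sum_congr rfl fun x _ => ?_
  rw [ZMod.stdAddChar_apply, ZMod.toCircle_apply, ee]
  congr 1
  push_cast
  ring

end

end Vale.Agent.P042.Upper.Weil
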