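import Mathlib

/-!
Newton identities for multisets and a lemma on bounded power sums of complex numbers.
-/

namespace Vale.Agent.P042.Upper.WeilProof

open Polynomial Finset Filter Topology

noncomputable section

/-! ### Newton's identities for multisets -/

section Newton

variable {R : Type*} [CommRing R]

/-- Signed elementary symmetric function. -/
def cc (s : Multiset R) (a : ℕ) : R := (-1) ^ a * s.esymm a

/-- Power sum. -/
def pp (s : Multiset R) (k : ℕ) : R := (s.map (· ^ k)).sum

lemma newton_fin {n : ℕ} (f : Fin n → R) (k : ℕ) :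
    (k : R) * cc (univ.val.map f) k +
      ∑ a ∈ range k, cc (univ.val.map f) a * pp (univ.val.map f) (k - a) = 0 := by
  have h := congrArg (MvPolynomial.aeval f) (MvPolynomial.mul_esymm_eq_sum (Fin n) R k)
  simp only [map_mul, map_sum, map_pow, map_neg, map_one, map_natCast,
    MvPolynomial.aeval_esymm_eq_multiset_esymm] at h
  have hp : ∀ j, MvPolynomial.aeval f (MvPolynomial.psum (Fin n) R j) = pp (univ.val.map f) j := by
    intro j
    simp only [MvPolynomial.psum, map_sum, map_pow, MvPolynomial.aeval_X]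
    simp only [pp, Finset.sum, Multiset.map_map, Function.comp_def]
  simp only [hp] at h
  have e : ∀ g : ℕ × ℕ → R,
      ∑ a ∈ antidiagonal k with a.1 < k, g a = ∑ a ∈ range k, g (a, k - a) := by
    intro g
    refine Finset.sum_bij' (fun a _ => a.1) (fun a _ => (a, k - a)) ?_ ?_ ?_ ?_ ?_
    · intro a ha; simp only [Finset.mem_filter] at ha; exact Finset.mem_range.2 ha.2
    · intro a ha
      simp only [Finset.mem_range] at ha
      simp only [Finset.mem_filter, HasAntidiagonal.mem_antidiagonal]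
      exact ⟨by omega, ha⟩
    · intro a ha
      simp only [Finset.mem_filter, HasAntidiagonal.mem_antidiagonal] at ha
      ext <;> simp; omega
    · intro a _; rfl
    · intro a ha
      simp only [Finset.mem_filter, HasAntidiagonal.mem_antidiagonal] at ha
      congr 1
      ext <;> simp; omega
  rw [e] at h
  simp only [cc]
  rw [show (k : R) * ((-1) ^ k * (univ.val.map f).esymm k) =
    (-1) ^ k * ((k : R) * (univ.val.map f).esymm k) by ring, h, ← mul_assoc, ← pow_add,
    show k + (k + 1) = 2 * k + 1 by ring, pow_succ, pow_mul, neg_one_sq, one_pow, one_mul,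
    neg_one_mul]
  exact neg_add_cancel _

lemma newton (s : Multiset R) (k : ℕ) :
    (k : R) * cc s k + ∑ a ∈ range k, cc s a * pp s (k - a) = 0 := by
  induction s using Quot.inductionOn with
  | _ l =>
    have h : (l : Multiset R) = univ.val.map l.get := by
      rw [Fin.univ_val_map, List.ofFn_get]
    simp only [Multiset.quot_mk_to_coe'']
    rw [h]
    exact newton_fin _ k

lemma cc_zero (s : Multiset R) : cc s 0 = 1 := by simp [cc, Multiset.esymm]

lemma coeff_prod_eq_cc (s : Multiset R) {a : ℕ} (ha : a ≤ Multiset.card s) :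
    (s.map fun t => X - C t).prod.coeff (Multiset.card s - a) = cc s a := by
  rw [Multiset.prod_X_sub_C_coeff s (Nat.sub_le _ _), Nat.sub_sub_self ha, cc]

end Newton

/-! ### A lemma on power sums of complex numbers -/

lemma norm_le_of_power_sums_bounded {ι : Type*} [Fintype ι] (u : ι → ℂ) (C : ℝ) (M : ℕ)
    (h : ∀ m, M ≤ m → ‖∑ i, u i ^ m‖ ≤ C) (i : ι) : ‖u i‖ ≤ 1 := by
  classical
  by_contra hi
  obtain ⟨i0, -, hi0⟩ := Finset.exists_max_image univ (fun j => ‖u j‖) ⟨i, mem_univ _⟩
  have hR1 : 1 < ‖u i0‖ := (not_le.1 hi).trans_le (hi0 i (mem_univ _))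
  set R := ‖u i0‖
  have hR0 : 0 < R := one_pos.trans hR1
  let v : ι → ℂ := fun j => u j / (R : ℂ)
  have hv : ∀ j, ‖v j‖ ≤ 1 := fun j => by
    rw [norm_div, Complex.norm_real, Real.norm_of_nonneg hR0.le, div_le_one hR0]
    exact hi0 j (mem_univ _)
  have hv0 : ‖v i0‖ = 1 := by
    rw [norm_div, Complex.norm_real, Real.norm_of_nonneg hR0.le, div_self hR0.ne']
  -- far apart indices at which all powers almost agree
  have hbdd : Bornology.IsBounded (Set.range fun m : ℕ => fun j => v j ^ m) := by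
    rw [isBounded_iff_forall_norm_le]
    refine ⟨1, ?_⟩
    rintro _ ⟨m, rfl⟩
    refine (pi_norm_le_iff_of_nonneg zero_le_one).2 fun j => ?_
    rw [norm_pow]
    exact pow_le_one₀ (norm_nonneg _) (hv j)
  obtain ⟨l, -, φ, hφ, hlim⟩ := tendsto_subseq_of_bounded hbdd fun m => Set.mem_range_self m
  set r := (Fintype.card ι : ℝ)
  have hr : 0 < r := by
    have : Nonempty ι := ⟨i⟩
    exact Nat.cast_pos.2 Fintype.card_pos
  obtain ⟨N, hN⟩ := Metric.cauchySeq_iff.1 hlim.cauchySeq (1 / (8 * r)) (by positivity)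
  obtain ⟨L, hL⟩ := pow_unbounded_of_one_lt (2 * C) hR1
  set t := φ N + φ N + M + L + 1
  have hgap : φ N + (φ N + M + L + 1) ≤ φ (N + t) := by
    have := hφ.id_le (N + t); simp only [id_eq] at this; omega
  set Δ := φ (N + t) - φ N
  have hΔ : φ N + M + L + 1 ≤ Δ := by omega
  have hclose : ∀ j, ‖v j ^ (φ (N + t)) - v j ^ φ N‖ ≤ 1 / (8 * r) := fun j => by
    have h1 := hN (N + t) (Nat.le_add_right _ _) N le_rfl
    rw [dist_eq_norm] at h1
    exact (norm_le_pi_norm ((fun j => v j ^ φ (N + t)) - fun j => v j ^ φ N) j).trans h1.le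
  -- each term has real part almost nonnegative, the top one almost one
  set w : ι → ℂ := fun j => v j ^ Δ
  have hw : ∀ j, ‖w j‖ ≤ 1 := fun j => by rw [norm_pow]; exact pow_le_one₀ (norm_nonneg _) (hv j)
  have hkey : ∀ j, ‖v j ^ φ N‖ * ‖w j - 1‖ ≤ 1 / (8 * r) := fun j => by
    rw [← norm_mul, mul_sub, mul_one, ← pow_add, show φ N + Δ = φ (N + t) by omega]
    exact hclose j
  have h0 : (7 : ℝ) / 8 ≤ (w i0).re := by
    have := hkey i0
    rw [norm_pow, hv0, one_pow, one_mul] at this
    have h2 := (Complex.abs_re_le_norm (w i0 - 1)).trans this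
    have h3 : 1 / (8 * r) ≤ 1 / 8 := by
      have : (1 : ℝ) ≤ r := by
        have : Nonempty ι := ⟨i⟩
        exact Nat.one_le_cast.2 Fintype.card_pos
      exact one_div_le_one_div_of_le (by norm_num) (by linarith)
    rw [Complex.sub_re, Complex.one_re] at h2
    linarith [(abs_le.1 h2).1]
  have hlow : ∀ j, -(1 / (4 * r)) ≤ (w j).re := by
    intro j
    by_cases hsmall : ‖v j ^ φ N‖ ≤ 1 / (4 * r)
    · have hb : ‖w j‖ ≤ 1 / (4 * r) := by
        refine le_trans ?_ hsmall
        rw [norm_pow, norm_pow]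
        exact pow_le_pow_of_le_one (norm_nonneg _) (hv j) (by omega)
      linarith [(abs_le.1 ((Complex.abs_re_le_norm (w j)).trans hb)).1]
    · have h4 : ‖w j - 1‖ ≤ 1 / 2 := by
        by_contra h5
        have h6 := mul_lt_mul'' (not_le.1 hsmall) (not_le.1 h5) (by positivity) (by norm_num)
        have := hkey j
        have h7 : 1 / (4 * r) * (1 / 2) = 1 / (8 * r) := by ring
        linarith
      have h2 := (Complex.abs_re_le_norm (w j - 1)).trans h4
      rw [Complex.sub_re, Complex.one_re] at h2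
      have : 0 ≤ 1 / (4 * r) := by positivity
      linarith [(abs_le.1 h2).1]
  have hsum : (1 : ℝ) / 2 ≤ (∑ j, w j).re := by
    rw [Complex.re_sum, ← Finset.add_sum_erase _ _ (mem_univ i0)]
    have h5 : -(1 / 4 : ℝ) ≤ ∑ j ∈ univ.erase i0, (w j).re := by
      refine le_trans ?_ (Finset.sum_le_sum fun j _ => hlow j)
      rw [Finset.sum_const, nsmul_eq_mul]
      have h6 : ((univ.erase i0).card : ℝ) ≤ r :=
        Nat.cast_le.2 ((Finset.card_le_univ _))
      have h7 : r * (1 / (4 * r)) = 1 / 4 := by field_simp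
      nlinarith [show (0 : ℝ) ≤ 1 / (4 * r) by positivity]
    linarith
  have hbig : C < ‖∑ j, u j ^ Δ‖ := by
    have e : ∑ j, u j ^ Δ = (R : ℂ) ^ Δ * ∑ j, w j := by
      rw [Finset.mul_sum]
      refine Finset.sum_congr rfl fun j _ => ?_
      simp only [w, v]
      rw [← mul_pow, mul_div_cancel₀ _ (Complex.ofReal_ne_zero.2 hR0.ne')]
    rw [e, norm_mul, norm_pow, Complex.norm_real, Real.norm_of_nonneg hR0.le]
    have h8 : R ^ L ≤ R ^ Δ := pow_le_pow_right₀ hR1.le (by omega)
    have h9 : (1 : ℝ) / 2 ≤ ‖∑ j, w j‖ := hsum.trans (Complex.re_le_norm _)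
    have h10 : R ^ Δ * (1 / 2) ≤ R ^ Δ * ‖∑ j, w j‖ :=
      mul_le_mul_of_nonneg_left h9 (pow_nonneg hR0.le _)
    linarith
  exact absurd (h Δ (by omega)) (not_le.2 hbig)

end

end Vale.Agent.P042.Upper.WeilProof
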